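import Vale.Agent.P203.Glue.Data
import Vale.Agent.P203.Spec.KeySys

/-!
# P203, block GLUE, part 3: from `Spec.KeySys` to `Morse.Key`, `Morse.Nice`, `Morse.Framed`
-/

namespace Vale.Agent.P203.Glue

open CoxeterSystem Vale.Agent.P203.Cox

variable {S : Type} [Fintype S] [DecidableEq S] {M : CoxeterMatrix S}

/-- the key system of MORSE -/
def keyOf (K : Spec.KeySys M) : Morse.Key (dataOf M) where
  F h n t := K.d n t h
  w0 n r := K.fr n r
  F_nonneg h n t := K.d_nonneg n t h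
  w0_nonneg n t := K.fr_nonneg n t
  F_mul h n t s hst := K.inv n s t h hst
  F_bdd h t := by
    obtain ⟨N, hN⟩ := K.bdd h
    exact ⟨N, fun m hm => hN m hm t⟩
  F_disc C := by
    refine (K.vals_fin C).subset ?_
    rintro x ⟨hx, h, n, t, rfl⟩
    exact ⟨K.d_mem n t h, hx⟩

theorem adj_iff {r s : S} (h : r ≠ s) : Spec.Adj M r s ↔ (dataOf M).c r s ≠ 0 := by
  have h2 : (dataOf M).c r s = -gram M r s := rfl
  rw [h2, neg_ne_zero]
  constructor
  · rintro ⟨_, h3⟩ h4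
    exact h3 ((gram_eq_zero_iff h).1 h4)
  · intro h3
    exact ⟨h, fun h4 => h3 ((gram_eq_zero_iff h).2 h4)⟩

/-- on a connected `U` the degrees are constant -/
theorem const_of_conn {a : ArtinGroup M} {K : Spec.KeySys M} {U : Finset S} {n : S → ℤ}
    {ρ : S → ℝ} (hU : Morse.GConn (dataOf M) U) (h : Morse.IsCls (keyOf K) a U n ρ) :
    ∃ N : ℤ, ∀ r ∈ U, n r = N := by
  rcases U.eq_empty_or_nonempty with rfl | ⟨r0, hr0⟩
  · exact ⟨0, fun r hr => absurd hr (Finset.notMem_empty r)⟩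
  · refine ⟨n r0, fun r hr => ?_⟩
    by_contra hne
    have hVne : (U.filter fun x => n x = n r0) ≠ U := by
      intro h'
      have h2 : r ∈ U.filter fun x => n x = n r0 := by rw [h']; exact hr
      exact hne (Finset.mem_filter.1 h2).2
    obtain ⟨x, hx, y, hy, hxy⟩ := hU (U.filter fun x => n x = n r0) (Finset.filter_subset _ _)
      ⟨r0, Finset.mem_filter.2 ⟨hr0, rfl⟩⟩ hVne
    obtain ⟨hxU, hx'⟩ := Finset.mem_filter.1 hx
    obtain ⟨hyU, hy'⟩ := Finset.mem_sdiff.1 hy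
    have hxy' : x ≠ y := by
      rintro rfl
      exact hy' hx
    exact hy' (Finset.mem_filter.2 ⟨hyU, (h.n_const x hxU y hyU hxy' hxy).symm.trans hx'⟩)

theorem isClass_of {K : Spec.KeySys M} {a : ArtinGroup M} {U : Finset S} {n : S → ℤ}
    {ρ : S → ℝ} (h : Morse.IsCls (keyOf K) a U n ρ) {N : ℤ} (hN : ∀ r ∈ U, n r = N) :
    K.toKeyData.IsClass U N ρ a where
  ext := fun r hr => ⟨fun s hs hrs m hm => h.out_zero r hr s hs ((adj_iff hrs.1).1 hrs) m
    (by rw [hN r hr]; exact hm), fun m hm => h.ext_zero r hr m (by rw [hN r hr]; exact hm)⟩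
  slack_nonneg := fun r hr => by
    have h1 := h.ineq r hr
    rw [hN r hr] at h1
    have h2 : ∑ t ∈ Finset.univ.erase r, (dataOf M).c r t *
        (if t ∈ U then ρ t else (keyOf K).F a N t) =
        ∑ t ∈ U.erase r, -gram M r t * ρ t + ∑ t ∈ Uᶜ, -gram M r t * K.d N t a := by
      rw [← Finset.sum_filter_add_sum_filter_not (Finset.univ.erase r) (· ∈ U)]
      congr 1
      · refine Finset.sum_congr ?_ fun t ht => ?_
        · ext t
          simp only [Finset.mem_filter, Finset.mem_erase, Finset.mem_univ]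
          tauto
        · rw [if_pos (Finset.mem_of_mem_erase ht)]
          rfl
      · refine Finset.sum_congr ?_ fun t ht => ?_
        · ext t
          simp only [Finset.mem_filter, Finset.mem_erase, Finset.mem_univ, Finset.mem_compl]
          constructor
          · rintro ⟨-, h3⟩
            exact h3
          · intro h3
            exact ⟨⟨fun h4 => h3 (h4 ▸ hr), trivial⟩, h3⟩
        · rw [if_neg (Finset.mem_compl.1 ht)]
          rfl
    rw [h2] at h1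
    unfold Spec.KeyData.slack Spec.KeyData.wext
    have h3 : (keyOf K).w0 N r = K.fr N r := rfl
    rw [h3] at h1
    rw [← Finset.add_sum_erase U _ hr, gram_self]
    have h5 : ∑ t ∈ U.erase r, -gram M r t * ρ t = - ∑ t ∈ U.erase r, gram M r t * ρ t := by
      rw [← Finset.sum_neg_distrib]
      exact Finset.sum_congr rfl fun t _ => by ring
    rw [h5] at h1
    linarith

theorem mem_neg_iff {K : Spec.KeySys M} {a : ArtinGroup M} {U : Finset S} {n : S → ℤ}
    {ρ : S → ℝ} {N : ℤ} (hN : ∀ r ∈ U, n r = N) {p : ArtinGroup M × S} :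
    p ∈ Morse.Neg (keyOf K) a U n ρ ↔
      a⁻¹ * p.1 ∈ Morse.Par (dataOf M) U ∧ p.2 ∈ U ∧ K.toKeyData.Neg N ρ p.2 p.1 := by
  constructor
  · rintro ⟨h1, h2, h3, h4⟩
    rw [hN _ h2] at h3 h4
    exact ⟨h1, h2, h3, h4⟩
  · rintro ⟨h1, h2, h3, h4⟩
    refine ⟨h1, h2, ?_⟩
    rw [hN _ h2]
    exact ⟨h3, h4⟩

theorem mem_zer_iff {K : Spec.KeySys M} {a : ArtinGroup M} {U : Finset S} {n : S → ℤ}
    {ρ : S → ℝ} {N : ℤ} (hN : ∀ r ∈ U, n r = N) {p : ArtinGroup M × S} :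
    p ∈ Morse.Zer (keyOf K) a U n ρ ↔
      a⁻¹ * p.1 ∈ Morse.Par (dataOf M) U ∧ p.2 ∈ U ∧ K.toKeyData.Zero N ρ p.2 p.1 := by
  constructor
  · rintro ⟨h1, h2, h3, h4⟩
    rw [hN _ h2] at h3 h4
    exact ⟨h1, h2, h3, h4⟩
  · rintro ⟨h1, h2, h3, h4⟩
    refine ⟨h1, h2, ?_⟩
    rw [hN _ h2]
    exact ⟨h3, h4⟩

/-- one step -/
theorem step_of {K : Spec.KeySys M} {a : ArtinGroup M} {U : Finset S} {n : S → ℤ}
    {ρ : S → ℝ} {N : ℤ} (hN : ∀ r ∈ U, n r = N) {p q : S × ArtinGroup M}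
    (h : Spec.Step (K.toKeyData.Neg N ρ) U p q)
    (hp : (p.2, p.1) ∈ Morse.Neg (keyOf K) a U n ρ) :
    (q.2, q.1) ∈ Morse.Neg (keyOf K) a U n ρ ∧
      Morse.Step (dataOf M) U (Morse.Neg (keyOf K) a U n ρ) (p.2, p.1) (q.2, q.1) := by
  have hinv : ∀ (s t : S) (b : ArtinGroup M), s ≠ t →
      (K.toKeyData.Neg N ρ t (b * artinGen M s) ↔ K.toKeyData.Neg N ρ t b) := by
    intro s t b hst
    unfold Spec.KeyData.Neg Spec.KeyData.Van
    simp only [K.inv _ s t b hst]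
  have hp' := (mem_neg_iff hN).1 hp
  cases h with
  | chamber s t b hs ht h1 h2 =>
    have hq : (b, t) ∈ Morse.Neg (keyOf K) a U n ρ := (mem_neg_iff hN).2 ⟨hp'.1, ht, h2⟩
    exact ⟨hq, hp, hq, Or.inr rfl⟩
  | up s t b hs ht hst h1 =>
    have hm : artinGen M s ∈ Morse.Par (dataOf M) (U.erase t) :=
      Subgroup.subset_closure ⟨s, Finset.mem_coe.2 (Finset.mem_erase.2 ⟨hst, hs⟩), rfl⟩
    have hm' : artinGen M s ∈ Morse.Par (dataOf M) U :=
      Subgroup.subset_closure ⟨s, Finset.mem_coe.2 hs, rfl⟩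
    have hq : (b * artinGen M s, t) ∈ Morse.Neg (keyOf K) a U n ρ := by
      refine (mem_neg_iff hN).2 ⟨?_, ht, (hinv s t b hst).2 h1⟩
      have := mul_mem hp'.1 hm'
      rwa [mul_assoc] at this
    refine ⟨hq, hp, hq, Or.inl ⟨rfl, ?_⟩⟩
    show b⁻¹ * (b * artinGen M s) ∈ _
    rw [inv_mul_cancel_left]
    exact hm
  | down s t b hs ht hst h1 =>
    have hm : artinGen M s ∈ Morse.Par (dataOf M) (U.erase t) :=
      Subgroup.subset_closure ⟨s, Finset.mem_coe.2 (Finset.mem_erase.2 ⟨hst, hs⟩), rfl⟩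
    have hm' : artinGen M s ∈ Morse.Par (dataOf M) U :=
      Subgroup.subset_closure ⟨s, Finset.mem_coe.2 hs, rfl⟩
    have hq : (b, t) ∈ Morse.Neg (keyOf K) a U n ρ := by
      refine (mem_neg_iff hN).2 ⟨?_, ht, h1⟩
      have h2 : a⁻¹ * (b * artinGen M s) ∈ Morse.Par (dataOf M) U := hp'.1
      have := mul_mem h2 (inv_mem hm')
      rwa [← mul_assoc, mul_assoc, mul_inv_cancel, mul_one] at this
    refine ⟨hq, hp, hq, Or.inl ⟨rfl, ?_⟩⟩
    show (b * artinGen M s)⁻¹ * b ∈ _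
    rw [mul_inv_rev, mul_assoc, inv_mul_cancel, mul_one]
    exact inv_mem hm

theorem reach_of {K : Spec.KeySys M} {a : ArtinGroup M} {U : Finset S} {n : S → ℤ}
    {ρ : S → ℝ} {N : ℤ} (hN : ∀ r ∈ U, n r = N) {p q : S × ArtinGroup M}
    (h : Relation.ReflTransGen (Spec.Step (K.toKeyData.Neg N ρ) U) p q)
    (hp : (p.2, p.1) ∈ Morse.Neg (keyOf K) a U n ρ) :
    (q.2, q.1) ∈ Morse.Neg (keyOf K) a U n ρ ∧
      Morse.Reach (dataOf M) U (Morse.Neg (keyOf K) a U n ρ) (p.2, p.1) (q.2, q.1) := by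
  induction h with
  | refl => exact ⟨hp, Relation.ReflTransGen.refl⟩
  | tail _ hstep ih =>
    obtain ⟨h1, h2⟩ := ih
    obtain ⟨h3, h4⟩ := step_of hN hstep h1
    exact ⟨h3, h2.tail h4⟩

theorem nice_of {K : Spec.KeySys M} (hc : Spec.ConnStmt K.toKeyData)
    (hz : Spec.ZStmt K.toKeyData) : Morse.Nice (keyOf K) where
  conn U hU hconn a n ρ hcls := by
    obtain ⟨N, hN⟩ := const_of_conn hconn hcls
    rintro p hp q hq
    have hp' := (mem_neg_iff hN).1 hp
    have hq' := (mem_neg_iff hN).1 hq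
    have h1 := hc U N ρ a hU (isClass_of hcls hN) p.2 hp'.2.1 q.2 hq'.2.1 (a⁻¹ * p.1) hp'.1
      (a⁻¹ * q.1) hq'.1 (by rw [mul_inv_cancel_left]; exact hp'.2.2)
      (by rw [mul_inv_cancel_left]; exact hq'.2.2)
    rw [mul_inv_cancel_left, mul_inv_cancel_left] at h1
    exact (reach_of (a := a) hN h1 hp).2
  zero U hU hconn a n ρ hcls hne p hp := by
    obtain ⟨N, hN⟩ := const_of_conn hconn hcls
    obtain ⟨q, hq⟩ := hne
    have hp' := (mem_zer_iff hN).1 hp
    have hq' := (mem_neg_iff hN).1 hq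
    obtain ⟨r, hr, e, he, h2⟩ := hz U N ρ a hU (isClass_of hcls hN) q.2 hq'.2.1 p.2 hp'.2.1
      (a⁻¹ * q.1) hq'.1 (a⁻¹ * p.1) hp'.1 (by rw [mul_inv_cancel_left]; exact hq'.2.2)
      (by rw [mul_inv_cancel_left]; exact hp'.2.2)
    rw [mul_inv_cancel_left] at h2
    refine ⟨(p.1 * e, r), (mem_neg_iff hN).2 ⟨?_, Finset.mem_of_mem_erase hr, h2⟩, ?_, hr⟩
    · have h3 : e ∈ Morse.Par (dataOf M) U :=
        Subgroup.closure_mono (Set.image_mono (by exact_mod_cast Finset.erase_subset _ _)) he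
      have := mul_mem hp'.1 h3
      rwa [mul_assoc] at this
    · show p.1⁻¹ * (p.1 * e) ∈ _
      rw [inv_mul_cancel_left]
      exact he

theorem framed_of {K : Spec.KeySys M} {g : ArtinGroup M} (h : Spec.IsBase K.toKeyData g) :
    Morse.Framed (keyOf K) g where
  F_base m t := h.1 m t
  w0_zero t := h.2.1 t
  w0_pos m hm t := h.2.2 m t hm

end Vale.Agent.P203.Glue
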