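import Vale.Agent.P203.Glue.Data
import Vale.Agent.P203.Sph.Deligne

/-!
# P203, block GLUE, part 2: theories on the cell poset
-/

namespace Vale.Agent.P203.Glue

open CoxeterSystem Vale.Agent.P203.Gar Vale.Agent.P203.Cox Vale.Agent.P203.Sph

/-- A good theory on a poset `P`: `Good A` says that the lower set `A` is contractible, `Rel A B`
that the inclusion `A ⊆ B` is injective on homotopy.  (Same fields as `Top.GoodTheory`.) -/
structure PosetTheory {P : Type} [PartialOrder P] (Good : Set P → Prop)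
    (Rel : Set P → Set P → Prop) : Prop where
  principal : ∀ a, Good (Set.Iic a)
  union : ∀ A B, IsLowerSet A → IsLowerSet B → Good A → Good B → Good (A ∩ B) → Good (A ∪ B)
  iUnion : ∀ {ι : Type} [Nonempty ι] (A : ι → Set P), (∀ i, IsLowerSet (A i)) →
    Directed (· ⊆ ·) A → (∀ i, Good (A i)) → Good (⋃ i, A i)
  rel_refl : ∀ A, Rel A A
  rel_trans : ∀ A B D, A ⊆ B → B ⊆ D → Rel A B → Rel B D → Rel A D
  rel_union : ∀ A B, IsLowerSet A → IsLowerSet B → Good (A ∩ B) → Rel A (A ∪ B)
  rel_iUnion : ∀ {ι : Type} [Nonempty ι] (A : Set P) (B : ι → Set P), (∀ i, IsLowerSet (B i)) →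
    Directed (· ⊆ ·) B → (∀ i, Rel A (B i)) → Rel A (⋃ i, B i)
  rel_good : ∀ A B, A.Nonempty → A ⊆ B → Rel A B → Good B → Good A

theorem PosetTheory.goodClass {P : Type} [PartialOrder P] {Good : Set P → Prop}
    {Rel : Set P → Set P → Prop} (h : PosetTheory Good Rel) : GoodClass Good where
  principal := h.principal
  union := h.union
  iUnion := h.iUnion

variable {S : Type} {M : CoxeterMatrix S}

/-- sets of pairs as sets of cells -/
def pull (M : CoxeterMatrix S) (X : Set (ArtinGroup M × Finset S)) : Set (ACell M) :=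
  {c | (c.g, c.T) ∈ X}

theorem pull_union (X Y : Set (ArtinGroup M × Finset S)) :
    pull M (X ∪ Y) = pull M X ∪ pull M Y := rfl

theorem pull_inter (X Y : Set (ArtinGroup M × Finset S)) :
    pull M (X ∩ Y) = pull M X ∩ pull M Y := rfl

theorem pull_sUnion (X : Set (Set (ArtinGroup M × Finset S))) :
    pull M (⋃₀ X) = ⋃ x : X, pull M x.1 := by
  ext c
  simp [pull]

variable [Fintype S] [DecidableEq S]

theorem isLowerSet_pull {X : Set (ArtinGroup M × Finset S)} (h : Morse.Sat (dataOf M) X) :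
    IsLowerSet (pull M X) := by
  intro c d hdc hc
  obtain ⟨h1, w, hw, hg⟩ := hdc
  refine (h c.g c.T hc).2 d.g d.T h1 ?_
  rw [hg, inv_mul_cancel_left]
  exact tl_mem_AP hw.1

theorem pull_nonempty {X : Set (ArtinGroup M × Finset S)} (h : Morse.Sat (dataOf M) X)
    (hX : X.Nonempty) : (pull M X).Nonempty := by
  obtain ⟨⟨g, T⟩, hgT⟩ := hX
  exact ⟨⟨g, T, (h g T hgT).1⟩, hgT⟩

/-- The good theory of MORSE defined by a theory on the cell poset. -/
def theoryOf {Good : Set (ACell M) → Prop} {Rel : Set (ACell M) → Set (ACell M) → Prop}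
    (h : PosetTheory Good Rel) : Morse.GoodTheory (dataOf M) where
  W X := Good (pull M X)
  E X Y := Rel (pull M X) (pull M Y)
  union X Y hX hY h1 h2 h3 :=
    h.union _ _ (isLowerSet_pull hX) (isLowerSet_pull hY) h1 h2 h3
  dir X hne hd hs hw := by
    have := hne.to_subtype
    rw [pull_sUnion]
    refine h.iUnion (fun x : X => pull M x.1) (fun x => isLowerSet_pull (hs _ x.2)) ?_
      fun x => hw _ x.2
    intro x y
    obtain ⟨z, hz, hxz, hyz⟩ := hd x.1 x.2 y.1 y.2
    exact ⟨⟨z, hz⟩, fun c hc => hxz hc, fun c hc => hyz hc⟩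
  E_refl X _ := h.rel_refl _
  E_trans X Y Z _ _ _ h1 h2 h3 h4 := h.rel_trans _ _ _ (fun _ hc => h1 hc) (fun _ hc => h2 hc) h3 h4
  E_attach X Y hX hY _ h2 := h.rel_union _ _ (isLowerSet_pull hX) (isLowerSet_pull hY) h2
  E_dir P X hne hd _ hs he := by
    have := hne.to_subtype
    rw [pull_sUnion]
    refine h.rel_iUnion _ (fun x : X => pull M x.1) (fun x => isLowerSet_pull (hs _ x.2).1) ?_
      fun x => he _ x.2
    intro x y
    obtain ⟨z, hz, hxz, hyz⟩ := hd x.1 x.2 y.1 y.2
    exact ⟨⟨z, hz⟩, fun c hc => hxz hc, fun c hc => hyz hc⟩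
  E_back X Y hX _ hne hXY h1 h2 :=
    h.rel_good _ _ (pull_nonempty hX hne) (fun _ hc => hXY hc) h1 h2

theorem pull_Q (a : ArtinGroup M) (U : Finset S) :
    pull M (Morse.Q (dataOf M) a U) = full {x | a⁻¹ * x ∈ AP M (U : Set S)} := by
  ext c
  rw [mem_full_coset]
  constructor
  · rintro ⟨h1, h2, -⟩
    exact ⟨h1, by exact_mod_cast h2⟩
  · rintro ⟨h1, h2⟩
    exact ⟨h1, by exact_mod_cast h2, c.sph⟩

/-- the spherical case, as input for MORSE -/
theorem W_Q_of_spherical {Good : Set (ACell M) → Prop} {Rel : Set (ACell M) → Set (ACell M) → Prop}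
    (h : PosetTheory Good Rel) (lcm : ∀ U : Finset S, Spherical M U → LcmProp M U)
    (a : ArtinGroup M) {U : Finset S} (hU : (dataOf M).Sph U) :
    (theoryOf h).W (Morse.Q (dataOf M) a U) := by
  show Good (pull M _)
  rw [pull_Q]
  exact good_spherical h.goodClass hU (lcm U hU) a

theorem pull_Q_univ : pull M (Morse.Q (dataOf M) 1 Finset.univ) = Set.univ := by
  rw [pull_Q, Set.eq_univ_iff_forall]
  intro c
  rw [mem_full_coset]
  refine ⟨?_, by simp⟩
  have h : AP M ((Finset.univ : Finset S) : Set S) = ⊤ := by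
    unfold AP
    rw [Finset.coe_univ, Set.image_univ]
    exact PresentedGroup.closure_range_of _
  rw [h]
  exact Subgroup.mem_top _

/-- **Final assembly**: if MORSE gives `W (Q a U)` for all `U` then all cells are good. -/
theorem good_univ {Good : Set (ACell M) → Prop} {Rel : Set (ACell M) → Set (ACell M) → Prop}
    (h : PosetTheory Good Rel)
    (hm : (theoryOf h).W (Morse.Q (dataOf M) 1 Finset.univ)) : Good Set.univ := by
  rw [← pull_Q_univ]
  exact hm

end Vale.Agent.P203.Glue
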