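import Vale.Agent.P203.Glue.Theory
import Vale.Agent.P203.Top.Cover

/-!
# P203, block GLUE: the theory on the cell poset defined by a `Top.GoodTheory`
-/

namespace Vale.Agent.P203.Glue

theorem posetTheory_of_top {P : Type} [PartialOrder P] {Good : Set P → Prop}
    {Rel : Set P → Set P → Prop} (h : Top.GoodTheory Good Rel) : PosetTheory Good Rel where
  principal := h.principal
  union := h.union
  iUnion := h.iUnion
  rel_refl := h.rel_refl
  rel_trans := h.rel_trans
  rel_union := h.rel_union
  rel_iUnion := h.rel_iUnion
  rel_good := h.rel_good

end Vale.Agent.P203.Glue
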