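import Vale.Agent.P203.Morse.Defs
import Vale.Agent.P203.Cox0.Vinberg
import Vale.Agent.P203.Gar.Delta
import Vale.Agent.P203.Vin.Sph

/-!
# P203, block GLUE, part 1: the combinatorial data of MORSE for the Artin group
-/

namespace Vale.Agent.P203.Glue

open CoxeterSystem Vale.Agent.P203.Gar Vale.Agent.P203.Cox

variable {S : Type} {M : CoxeterMatrix S}

theorem artinGen_comm {s t : S} (h : M s t = 2) :
    artinGen M s * artinGen M t = artinGen M t * artinGen M s := by
  have h1 := isBraided_artinGen M s t (by rw [h]; decide)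
  rw [h] at h1
  simpa [alternatingWord] using h1

theorem spherical_empty : Spherical M (∅ : Finset S) := by
  unfold Spherical
  rw [Finset.coe_empty, Set.image_empty, Subgroup.closure_empty]
  infer_instance

theorem spherical_of_finite {U : Finset S} (h : Finite (parab M.toCoxeterSystem (U : Set S))) :
    Spherical M U := h

theorem finite_of_spherical {U : Finset S} (h : Spherical M U) :
    Finite (parab M.toCoxeterSystem (U : Set S)) := h

theorem spherical_singleton (s : S) : Spherical M ({s} : Finset S) := by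
  refine spherical_of_finite (finite_of_pos (v := fun _ => 1) (fun _ _ => one_pos) ?_)
  intro r hr
  rw [Finset.mem_singleton] at hr
  subst hr
  rw [Finset.sum_singleton, gram_self]
  norm_num

variable [DecidableEq S]

/-- the positive vector for a spherical subset -/
theorem posVec {U : Finset S} (h : Spherical M U) : ∃ w : S → ℝ, (∀ t ∈ U, 0 < w t) ∧
    ∀ r ∈ U, ∑ t ∈ U.erase r, -gram M r t * w t < 2 * w r := by
  obtain ⟨v, h1, -, h3⟩ := exists_two_of_finite (finite_of_spherical h)
  refine ⟨v, fun t ht => lt_of_lt_of_le one_pos (h1 t ht), fun r hr => ?_⟩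
  have h4 := h3 r hr
  rw [← Finset.add_sum_erase U _ hr, gram_self] at h4
  have h5 : ∑ t ∈ U.erase r, -gram M r t * v t = - ∑ t ∈ U.erase r, gram M r t * v t := by
    rw [← Finset.sum_neg_distrib]
    exact Finset.sum_congr rfl fun t _ => by ring
  rw [h5]
  linarith

/-- the Vinberg vector for a connected nonspherical subset -/
theorem vinVec {U : Finset S} (h : ¬ Spherical M U)
    (hc : ∀ V ⊆ U, V.Nonempty → V ≠ U → ∃ r ∈ V, ∃ t ∈ U \ V, -gram M r t ≠ 0) :
    ∃ w : S → ℝ, (∀ t ∈ U, 0 < w t) ∧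
      ∀ r ∈ U, 2 * w r ≤ ∑ t ∈ U.erase r, -gram M r t * w t := by
  classical
  have hne : U.Nonempty := by
    rw [Finset.nonempty_iff_ne_empty]
    rintro rfl
    exact h spherical_empty
  have : Nonempty U := hne.to_subtype
  let g : U → U → ℝ := fun i j => gram M i.1 j.1
  have hconn : MConn g := by
    intro s hs hsc
    obtain ⟨V, hV⟩ : ∃ V : Finset S, ∀ x, x ∈ V ↔ ∃ hx : x ∈ U, (⟨x, hx⟩ : U) ∈ s :=
      ⟨U.filter fun x => ∃ hx : x ∈ U, (⟨x, hx⟩ : U) ∈ s, fun x => by
        rw [Finset.mem_filter]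
        exact ⟨fun h => h.2, fun h => ⟨h.1, h⟩⟩⟩
    have hVU : V ⊆ U := fun x hx => ((hV x).1 hx).1
    have hV1 : V.Nonempty := by
      obtain ⟨x, hx⟩ := hs
      exact ⟨x.1, (hV x.1).2 ⟨x.2, hx⟩⟩
    have hV2 : V ≠ U := by
      obtain ⟨x, hx⟩ := hsc
      intro hVe
      have h3 : x.1 ∈ V := by rw [hVe]; exact x.2
      obtain ⟨_, h2⟩ := (hV x.1).1 h3
      exact hx h2
    obtain ⟨r, hr, t, ht, hrt⟩ := hc V hVU hV1 hV2
    obtain ⟨hrU, hrs⟩ := (hV r).1 hr
    obtain ⟨htU, htV⟩ := Finset.mem_sdiff.1 ht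
    refine ⟨⟨r, hrU⟩, hrs, ⟨t, htU⟩, fun hts => htV ((hV t).2 ⟨htU, hts⟩), ?_⟩
    intro h0
    have h0' : gram M r t = 0 := h0
    exact hrt (by rw [h0', neg_zero])
  obtain ⟨v, μ, hv, hμ⟩ := perron (g := g) (fun i j => gram_comm _ _)
    (fun i j hij => gram_nonpos fun h' => hij (Subtype.ext h')) hconn
  -- extend by zero
  let w : S → ℝ := fun x => if hx : x ∈ U then v ⟨x, hx⟩ else 0
  have hw : ∀ x : U, w x.1 = v x := fun x => by simp [w]
  have hsum : ∀ r : U, ∑ t ∈ U, gram M r.1 t * w t = μ * w r.1 := by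
    intro r
    rw [hw r, ← hμ r, ← Finset.sum_coe_sort U]
    exact Finset.sum_congr rfl fun t _ => by rw [hw t]
  have hwpos : ∀ t ∈ U, 0 < w t := fun t ht => by rw [hw ⟨t, ht⟩]; exact hv _
  have hμ0 : μ ≤ 0 := by
    by_contra hpos
    push Not at hpos
    refine h (spherical_of_finite (finite_of_pos hwpos fun r hr => ?_))
    rw [hsum ⟨r, hr⟩]
    exact mul_pos hpos (hwpos r hr)
  refine ⟨w, hwpos, fun r hr => ?_⟩
  have h4 := hsum ⟨r, hr⟩
  simp only at h4
  rw [← Finset.add_sum_erase U _ hr, gram_self] at h4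
  have h5 : ∑ t ∈ U.erase r, -gram M r t * w t = - ∑ t ∈ U.erase r, gram M r t * w t := by
    rw [← Finset.sum_neg_distrib]
    exact Finset.sum_congr rfl fun t _ => by ring
  rw [h5]
  have h6 : μ * w r ≤ 0 := mul_nonpos_of_nonpos_of_nonneg hμ0 (hwpos r hr).le
  linarith

variable [Fintype S]

/-- The data of the Morse induction for the Artin group. -/
noncomputable def dataOf (M : CoxeterMatrix S) : Morse.Data S (ArtinGroup M) where
  σ := artinGen M
  c s t := -gram M s t
  c_symm s t := by rw [gram_comm]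
  c_nonneg s t h := by
    have := gram_nonpos (M := M) h
    linarith
  comm s t h h0 := artinGen_comm ((gram_eq_zero_iff h).1 (by linarith))
  Sph := Spherical M
  sph_mono hTU h := h.subset hTU
  sph_empty := spherical_empty
  sph_singleton := spherical_singleton
  sph_union h hU hV := Vin.spherical_union (fun s hs t ht => by
    obtain ⟨h1, h2⟩ := h s hs t ht
    exact (gram_eq_zero_iff h1).1 (by linarith)) hU hV
  posVec _ h := posVec h
  vinVec _ h hc := vinVec h hc

theorem par_dataOf (U : Finset S) : Morse.Par (dataOf M) U = AP M (U : Set S) := rfl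

end Vale.Agent.P203.Glue
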